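import Vale.Agent.P264F72.Dict2

/-! P264F: assembly from the chart rows. -/

set_option linter.all false

open scoped Manifold ContDiff ComplexOrder Topology ENNReal
open Set Complex Filter

noncomputable section

namespace Vale.Agent.P264F

open Vale.Agent.P272.K (Cm Chart IsIntegral At jacM cHess SmoothFn IsForm)
open Vale.Agent.P272.K.AMP (at_chartAt)
open Vale.Agent.P264Z (addDd IsAverageScal IsCalabiFlow logdet)

variable {n : ℕ} {X : Type} [TopologicalSpace X] [ChartedSpace (Cm n) X]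
  [IsManifold 𝓘(ℂ, Cm n) ω X] {w : Form n X} {u : X → ℝ} {s : ℝ}

theorem time_mono {T T' : ℝ≥0∞} (h : T ≤ T') : Time T ⊆ Time T' := fun _ ht => ⟨ht.1, ht.2.trans_le h⟩

theorem Icc_sub {T : ℝ≥0∞} {t : ℝ} (ht : t ∈ Time T) : Icc 0 t ⊆ Time T := fun τ hτ =>
  ⟨hτ.1, (ENNReal.ofReal_le_ofReal hτ.2).trans_lt ht.2⟩

theorem flow_zero (hw : IsKahler w) (h : ∀ x, scal w x = s) (T : ℝ≥0∞) :
    IsFlow w s T fun _ _ => 0 := by
  have e : w + ddbar n (fun _ : X => (0 : ℝ)) = w := by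
    funext x
    have h0 : SmoothFn (n := n) fun _ : X => (0 : ℝ) := fun _ _ _ => contDiffAt_const
    refine ((hw.inv' x).add (inv_ddbar h0 x)).ext (hw.inv' x) ?_
    rw [mat_add]
    have : mat (W (ddbar n fun _ : X => (0 : ℝ)) x) = 0 :=
      (mat_ddb contDiffAt_const).trans (P272.K.cHess_const _ _)
    rw [this, add_zero]
    rfl
  exact ⟨contMDiffOn_const, fun _ => rfl, fun t _ => by rwa [e], fun t _ x => by
    rw [e, h, sub_self]; exact hasDerivWithinAt_const _ _ _⟩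

variable [T2Space X] [CompactSpace X]

theorem flow_uniq (hw : IsKahler w) {T T' : ℝ≥0∞} {φ ψ : ℝ → X → ℝ} (h : IsFlow w s T φ)
    (h' : IsFlow w s T' ψ) {t : ℝ} (ht : t ∈ Time T) (ht' : t ∈ Time T') : ψ t = φ t := by
  funext x
  rcases ht.1.eq_or_lt with rfl | h0
  · rw [h.init, h'.init]
  · exact P264Z.IsCalabiFlow.unique (kahler_M hw) h0 (((flow_iff hw).1 h').mono (Icc_sub ht'))
      (((flow_iff hw).1 h).mono (Icc_sub ht)) t (right_mem_Icc.2 h0.le) x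

theorem max_top (hw : IsKahler w) {φ : ℝ → X → ℝ} (h : IsFlow w s ⊤ φ) : IsMaximal w s ⊤ φ :=
  ⟨h, fun T' ψ h' => ⟨le_top, fun t ht => flow_uniq hw h h' (time_mono le_top ht) ht⟩⟩

/-- the chart rows -/
def Rows : Prop := ForAll fun n X _ _ => ∀ g : Mats n X, P272.K.IsKahler g →
  (∀ s, ∃ T φ, IsCalabiFlow g s (Time T) φ ∧
    ∀ T' ψ, IsCalabiFlow g s (Time T') ψ → T' ≤ T ∧ ∀ t ∈ Time T', ψ t = φ t) ∧
  (∃! s, IsAverageScal g s) ∧
  (∀ u s, SmoothFn (n := n) u → P272.K.IsKahler (addDd g u) →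
    (IsAverageScal (addDd g u) s ↔ IsAverageScal g s)) ∧
  ∀ s, (∀ e x, At e x → P264Z.scal (g e) (e x) = s) → IsAverageScal g s

theorem part1 (R : Rows) :
    ForAll (fun n X _ _ => IsManifold 𝓘(ℝ, Cm n) ∞ X ∧ Charts n X ∧ ∀ w : Form n X, IsKahler w →
      (∃! s, IsAvg w s) ∧
      (∀ u, Smooth n u → IsKahler (w + ddbar n u) → ∀ s, IsAvg (w + ddbar n u) s ↔ IsAvg w s) ∧
      ∀ s, ∃! T, ∃ φ, IsMaximal w s T φ) := by
  intro n X _ _ _ _ _ _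
  refine ⟨realMan, charts, fun w hw => ?_⟩
  obtain ⟨h1, h2, h3, -⟩ := R n X (M w) (kahler_M hw)
  refine ⟨by simpa only [avg_iff hw] using h2, fun u hu hk s => ?_, fun s => ?_⟩
  · have hu' := smooth_iff.1 hu
    rw [avg_iff hk, avg_iff hw, ← h3 u s hu' ((kahler_add hw hu').1 hk)]
    exact ⟨(M_add w hu').avg, (M_add w hu').symm.avg⟩
  · obtain ⟨T, φ, hφ, hm⟩ := h1 s
    have hM : IsMaximal w s T φ :=
      ⟨(flow_iff hw).2 hφ, fun T' ψ h => hm T' ψ ((flow_iff hw).1 h)⟩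
    exact ⟨T, ⟨φ, hM⟩, fun T' ⟨ψ, h⟩ => le_antisymm (hM.2 _ _ h.1).1 (h.2 _ _ hM.1).1⟩

theorem part3 (R : Rows) (h : P264Z.NoGlobal 10) :
    ∃ (X : Type) (_ : TopologicalSpace X) (_ : T2Space X) (_ : CompactSpace X)
      (_ : ConnectedSpace X) (_ : ChartedSpace (Cm 10) X) (_ : IsManifold 𝓘(ℂ, Cm 10) ω X)
      (w : Form 10 X) (s : ℝ) (T : ℝ≥0∞) (φ : ℝ → X → ℝ) (u : X → ℝ),
      IsKahler w ∧ IsAvg w s ∧ IsMaximal w s T φ ∧ T ≤ 1 ∧ Smooth 10 u ∧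
      IsKahler (w + ddbar 10 u) ∧ (∀ x, scal (w + ddbar 10 u) x = s) ∧
      IsMaximal (w + ddbar 10 u) s ⊤ fun _ _ => 0 := by
  obtain ⟨X, i1, i2, i3, i4, i5, i6, g, hg, ⟨u, hu, hk, s, hs⟩, -, hno, -⟩ := P264Z.final h
  obtain ⟨w, hw, ha⟩ := exists_form hg
  have hk' : IsKahler (w + ddbar 10 u) := (kahler_add hw hu).2 ((ha.addDd u).symm.kahler hk)
  have hs' : ∀ x, scal (w + ddbar 10 u) x = s := fun x => by
    rw [scal_add hu hk' (at_chartAt x), (ha.addDd u).scal (at_chartAt x), hs _ x (at_chartAt x)]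
  obtain ⟨-, -, h1⟩ := part1 R 10 X
  obtain ⟨-, h2, h3⟩ := h1 w hw
  obtain ⟨T, ⟨φ, hφ⟩, -⟩ := h3 s
  refine ⟨X, i1, i2, i3, i4, i5, i6, w, s, T, φ, u, hw, (h2 u (smooth_iff.2 hu) hk' s).1 ?_, hφ,
    ?_, smooth_iff.2 hu, hk', hs', max_top hk' (flow_zero hk' hs' _)⟩
  · exact (avg_iff hk').2 ((R 10 X _ (kahler_M hk')).2.2.2 s fun e x hx => by
      rw [← scal_eq hk' hx, hs'])
  · by_contra hT
    obtain ⟨r, hr1, hr2⟩ := ENNReal.lt_iff_exists_real_btwn.1 (not_le.1 hT)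
    refine hno s r (by simpa using hr2.1) ⟨φ, (ha.flow ((flow_iff hw).1 hφ.1)).mono fun t ht =>
      ⟨ht.1, (ENNReal.ofReal_le_ofReal ht.2.le).trans_lt hr2.2⟩⟩

theorem part2 (R : Rows) (h : P264Z.NoGlobal 10) :
    ¬ ForAll (fun n X _ _ => ∀ (w : Form n X) s T φ, IsKahler w → IsAvg w s →
      IsMaximal w s T φ → T = ⊤) := by
  obtain ⟨X, i1, i2, i3, i4, i5, i6, w, s, T, φ, u, h1, h2, h3, h4, -⟩ := part3 R h
  intro H
  rw [H 10 X w s T φ h1 h2 h3] at h4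
  simp at h4

end Vale.Agent.P264F

end
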