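import Vale.Agent.P264F72.Lin

/-! P264F: `i∂∂̄` and closedness in terms of the coefficient matrix. -/

set_option linter.all false

open scoped ContDiff ComplexOrder Topology
open Set Complex Filter

noncomputable section

namespace Vale.Agent.P264F

open Vale.Agent.P272.K (Cm dz cHess)

variable {n : ℕ} {f : Cm n → ℝ} {z : Cm n}

theorem dJ_apply (f : Cm n → ℝ) (y : Cm n) (m : Fin 1 → Cm n) :
    dJ f y m = fderiv ℝ f y (I • m 0) := by
  simp [dJ]

theorem ddb_apply (h : DifferentiableAt ℝ (fderiv ℝ f) z) (u v : Cm n) :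
    ddb f z ![u, v] = -2⁻¹ * (fderiv ℝ (fderiv ℝ f) z u (I • v) -
      fderiv ℝ (fderiv ℝ f) z v (I • u)) := by
  have hd : DifferentiableAt ℝ (dJ f) z :=
    (ContinuousAlternatingMap.ofSubsingletonLIE (𝕜 := ℝ) (E := Cm n) (F := ℝ)
      (0 : Fin 1)).toContinuousLinearEquiv.differentiableAt.comp z
      (h.clm_comp (differentiableAt_const _))
  have e : ∀ a b : Cm n, fderiv ℝ (fun y => fderiv ℝ f y a) z b = fderiv ℝ (fderiv ℝ f) z b a := by
    intro a b
    rw [fderiv_clm_apply h (differentiableAt_const _)]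
    simp
  rw [ddb, ContinuousAlternatingMap.smul_apply, extDeriv_apply hd, Fin.sum_univ_two]
  simp only [dJ_apply]
  simp [Fin.removeNth, e]
  ring

theorem c2_diff (h : ContDiffAt ℝ 2 f z) : DifferentiableAt ℝ (fderiv ℝ f) z :=
  (h.fderiv_right (m := 1) (by norm_num)).differentiableAt (by norm_num)

theorem c2_symm (h : ContDiffAt ℝ 2 f z) (u v : Cm n) :
    fderiv ℝ (fderiv ℝ f) z u v = fderiv ℝ (fderiv ℝ f) z v u :=
  h.isSymmSndFDerivAt (by simp) u v

theorem inv_ddb (h : ContDiffAt ℝ 2 f z) : Inv (ddb f z) := fun u v => by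
  rw [ddb_apply (c2_diff h), ddb_apply (c2_diff h), II, II, map_neg, map_neg,
    c2_symm h (I • u), c2_symm h (I • v)]
  ring

theorem mat_ddb (h : ContDiffAt ℝ 2 f z) : mat (ddb f z) = cHess f z := by
  ext j k
  rw [P272.K.N.cHess_eq_lev (c2_diff h), P272.K.N.lev_apply, mat_apply, hf,
    ddb_apply (c2_diff h), ddb_apply (c2_diff h), II, map_neg, c2_symm h (I • _) (I • _),
    c2_symm h (Pi.single k 1), I_single, I_single]
  push_cast
  ring

theorem ddb_congr {g : Cm n → ℝ} (h : f =ᶠ[𝓝 z] g) : ddb f z = ddb g z := by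
  unfold ddb
  rw [Filter.EventuallyEq.extDeriv_eq (ω₂ := dJ g)]
  filter_upwards [h.fderiv (𝕜 := ℝ)] with y hy
  unfold dJ
  rw [hy]

/-! ### closedness -/

section closed

variable (β : Cm n →L[ℝ] Two n)

/-- the exterior derivative for the first derivative `β` -/
def dd (t u v : Cm n) : ℝ := β t ![u, v] - β u ![t, v] + β v ![t, u]

/-- the `(1,0)` derivative of the Hermitian form -/
def PP (t u v : Cm n) : ℂ := (hf (β t) u v - I * hf (β (I • t)) u v) / 2

def AA (t u v : Cm n) : ℂ := PP β t u v - PP β u t v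

variable {β} (hβ : ∀ t, Inv (β t))
include hβ

theorem AA_eq (t u v : Cm n) : 4 * AA β t u v =
    ((dd β t u (I • v) - dd β (I • t) (I • u) (I • v) : ℝ) : ℂ) -
      I * ((dd β t u v - dd β (I • t) (I • u) v : ℝ) : ℂ) := by
  simp only [AA, PP, hf, dd, hβ _ u v, hβ _ t v, hβ _ t u, (hβ _).left u v, (hβ _).left t v]
  push_cast
  linear_combination ((β (I • t) ![u, v] : ℂ) - β (I • u) ![t, v]) * I_mul_I

theorem dd_eq (t u v : Cm n) :
    dd β t u v = -2 * (AA β t u v - AA β t v u + AA β u v t).im := by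
  simp only [AA, PP, hf, dd, two_swap (β u) v t, two_swap (β t) v u, two_swap (β v) u t,
    two_swap (β (I • t)) v (I • u), two_swap (β (I • u)) v (I • t),
    two_swap (β (I • v)) u (I • t), (hβ _).left]
  simp
  ring

theorem PP_I1 (t u v : Cm n) : PP β (I • t) u v = I * PP β t u v := by
  have : hf (β (-t)) u v = -hf (β t) u v := by
    simp only [hf, map_neg, ContinuousAlternatingMap.neg_apply]; push_cast; ring
  rw [PP, PP, II, this]
  linear_combination (hf (β (I • t)) u v / 2) * I_mul_I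

theorem PP_I2 (t u v : Cm n) : PP β t (I • u) v = I * PP β t u v := by
  rw [PP, PP, (hβ _).hf_I, (hβ _).hf_I]; ring

theorem PP_I3 (t u v : Cm n) : PP β t u (I • v) = -I * PP β t u v := by
  have : ∀ a, hf (β a) u (I • v) = -I * hf (β a) u v := fun a => by
    rw [(hβ a).hf_conj, (hβ a).hf_I, map_mul, conj_I, ← (hβ a).hf_conj]
  rw [PP, PP, this, this]; ring

theorem AA_bas (h : ∀ i j k : Fin n, AA β (Pi.single i 1) (Pi.single j 1) (Pi.single k 1) = 0)
    (p q r : Fin n × Fin 2) : AA β (bas p) (bas q) (bas r) = 0 := by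
  obtain ⟨i, a⟩ := p
  obtain ⟨j, b⟩ := q
  obtain ⟨k, c⟩ := r
  have h0 := h i j k
  have e0 : ∀ i : Fin n, bas (i, (0 : Fin 2)) = Pi.single i 1 := fun i => by simp [bas]
  have e1 : ∀ i : Fin n, bas (i, (1 : Fin 2)) = I • (Pi.single i 1 : Cm n) := fun i => by
    simp [bas, I_single]
  unfold AA at h0 ⊢
  fin_cases a <;> fin_cases b <;> fin_cases c <;>
    simp only [Fin.zero_eta, Fin.mk_one, e0, e1, PP_I1 hβ, PP_I2 hβ, PP_I3 hβ,
      sub_eq_zero.1 h0] <;> ring

end closed

/-- the real basis of `ℂⁿ` -/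
def bb (n : ℕ) : Module.Basis (Fin n × Fin 2) ℝ (Cm n) :=
  (Pi.basis fun _ : Fin n => basisOneI).reindex (Equiv.sigmaEquivProd (Fin n) (Fin 2))

theorem bb_apply (p : Fin n × Fin 2) : bb n p = bas p := by
  obtain ⟨i, a⟩ := p
  fin_cases a <;> simp [bb, bas]

variable {α : Cm n → Two n}

theorem extDeriv_three (h : DifferentiableAt ℝ α z) (t u v : Cm n) :
    extDeriv α z ![t, u, v] = dd (fderiv ℝ α z) t u v := by
  have e0 : (0 : Fin 3).removeNth ![t, u, v] = ![u, v] := by funext i; fin_cases i <;> rfl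
  have e1 : (1 : Fin 3).removeNth ![t, u, v] = ![t, v] := by funext i; fin_cases i <;> rfl
  have e2 : (2 : Fin 3).removeNth ![t, u, v] = ![t, u] := by funext i; fin_cases i <;> rfl
  rw [extDeriv, ContinuousAlternatingMap.alternatizeUncurryFin_apply, Fin.sum_univ_three, e0, e1,
    e2]
  simp [dd, sub_eq_add_neg]

theorem inv_fderiv (h : DifferentiableAt ℝ α z) (hi : ∀ᶠ y in 𝓝 z, Inv (α y)) (t : Cm n) :
    Inv (fderiv ℝ α z t) := fun u v => by
  rw [← fderiv_continuousAlternatingMap_apply_const_apply h,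
    ← fderiv_continuousAlternatingMap_apply_const_apply h]
  rw [Filter.EventuallyEq.fderiv_eq (f := fun y => α y ![u, v])]
  filter_upwards [hi] with y hy using hy u v

theorem dz_mat (h : DifferentiableAt ℝ α z) (i j k : Fin n) :
    dz k (fun y => mat (α y) i j) z =
      PP (fderiv ℝ α z) (Pi.single k 1) (Pi.single i 1) (Pi.single j 1) := by
  have : fderiv ℝ (fun y => mat (α y) i j) z = (matL i j).comp (fderiv ℝ α z) := by
    simp only [← matL_apply]
    exact ((matL i j).hasFDerivAt.comp z h.hasFDerivAt).fderiv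
  rw [dz, this, PP, ← mat_apply, ← mat_apply, I_single]
  simp [matL_apply]

theorem closed_iff (h : DifferentiableAt ℝ α z) (hi : ∀ᶠ y in 𝓝 z, Inv (α y)) :
    extDeriv α z = 0 ↔
      ∀ i j k, dz k (fun y => mat (α y) i j) z = dz i (fun y => mat (α y) k j) z := by
  have hβ := inv_fderiv h hi
  simp only [dz_mat h]
  constructor
  · intro h0 i j k
    have h1 : ∀ t u v, dd (fderiv ℝ α z) t u v = 0 := fun t u v => by
      rw [← extDeriv_three h, h0]; rfl
    have := AA_eq hβ (Pi.single k 1) (Pi.single i 1) (Pi.single j 1)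
    simp only [h1] at this
    refine sub_eq_zero.1 ?_
    simpa [AA] using this
  · intro h0
    have h1 := AA_bas hβ fun i j k => sub_eq_zero.2 (h0 j k i)
    have h2 : (extDeriv α z).toAlternatingMap.toMultilinearMap = 0 := by
      refine Module.Basis.ext_multilinear (fun _ => bb n) fun p => ?_
      have e : (fun i => bb n (p i)) = ![bas (p 0), bas (p 1), bas (p 2)] := by
        funext i; fin_cases i <;> simp [bb_apply]
      rw [e]
      change extDeriv α z ![bas (p 0), bas (p 1), bas (p 2)] = 0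
      rw [extDeriv_three h, dd_eq hβ, h1, h1, h1]
      simp
    ext m
    exact congrArg (fun F => F m) h2

end Vale.Agent.P264F

end
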