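import Vale.Agent.P272.K.Stmt
import Mathlib.Analysis.Calculus.DifferentialForm.Basic
import Mathlib.Geometry.Manifold.MFDeriv.Defs
import Mathlib.Geometry.Manifold.ContMDiff.Defs

/-!
# P264: Kähler forms, scalar curvature, the Calabi flow and its maximal time
Forms are fields of alternating forms on the real tangent spaces of a complex manifold `X`.
-/

open scoped Manifold ContDiff ENNReal
open Set Complex

noncomputable section

namespace Vale.Agent.P264F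

open Vale.Agent.P272.K (Cm Chart IsIntegral)

variable {n : ℕ}

/-- Real alternating 2-forms on `ℂⁿ`. -/
abbrev Two (n : ℕ) : Type := Cm n [⋀^Fin 2]→L[ℝ] ℝ

/-- The coefficients `g_{j k̄}` of a real `(1,1)`-form `α = i ∑ g_{j k̄} dz_j ∧ dz̄_k`. -/
def mat (α : Two n) : Matrix (Fin n) (Fin n) ℂ :=
  Matrix.of fun j k =>
    (α ![Pi.single j 1, Pi.single k I] - I * α ![Pi.single j 1, Pi.single k 1]) / 2

/-- `tr_α ρ = ∑ g^{j k̄} ρ_{j k̄}`. -/
def tr (α ρ : Two n) : ℝ := ((mat α)⁻¹ * mat ρ).trace.re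

/-- The real basis `∂/∂x_1, ∂/∂y_1, …, ∂/∂x_n, ∂/∂y_n` of `ℂⁿ`. -/
def bas (p : Fin n × Fin 2) : Cm n := Pi.single p.1 (I ^ (p.2 : ℕ))

/-- The value of `αⁿ = α ∧ … ∧ α` on this basis: `αⁿ = top α dx_1 ∧ dy_1 ∧ … ∧ dx_n ∧ dy_n`. -/
def top (α : Two n) : ℝ :=
  (∑ σ : Equiv.Perm (Fin n × Fin 2),
    ((Equiv.Perm.sign σ : ℤ) : ℝ) * ∏ i, α ![bas (σ (i, 0)), bas (σ (i, 1))]) / 2 ^ n

/-- The 1-form `df ∘ J`. -/
def dJ (f : Cm n → ℝ) (y : Cm n) : Cm n [⋀^Fin 1]→L[ℝ] ℝ :=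
  ContinuousAlternatingMap.ofSubsingleton ℝ (Cm n) ℝ 0
    ((fderiv ℝ f y).comp (I • ContinuousLinearMap.id ℝ (Cm n)))

/-- `i∂∂̄f = -½ d(df ∘ J)` at `z`. -/
def ddb (f : Cm n → ℝ) (z : Cm n) : Two n := (-2⁻¹ : ℝ) • extDeriv (dJ f) z

variable (n) {X : Type} [TopologicalSpace X] [ChartedSpace (Cm n) X]

/-- The real tangent space; Mathlib identifies it with `ℂⁿ` by the chart at `x`. -/
abbrev Tan (x : X) : Type := TangentSpace 𝓘(ℝ, Cm n) x

variable (X) in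
/-- Real 2-forms on `X`. -/
abbrev Form : Type := (x : X) → Tan n x [⋀^Fin 2]→L[ℝ] ℝ

/-- `u` is a smooth function on `X`. -/
def Smooth (u : X → ℝ) : Prop := ContMDiff 𝓘(ℝ, Cm n) 𝓘(ℝ, ℝ) ∞ u

/-- The form `i∂∂̄u` on `X`. -/
def ddbar (u : X → ℝ) : Form n X := fun x =>
  ddb (fun z => u ((chartAt (Cm n) x).symm z)) (chartAt (Cm n) x x)

variable {n}

/-- The complex structure: multiplication by `i`. -/
def J {x : X} (v : Tan n x) : Tan n x := (I • (show Cm n from v) : Cm n)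

/-- The form `w` in the chart `e`: its pull-back by `e⁻¹`. -/
def loc (w : Form n X) (e : Chart n X) (z : Cm n) : Two n :=
  (w (e.symm z)).compContinuousLinearMap (mfderiv 𝓘(ℝ, Cm n) 𝓘(ℝ, Cm n) e.symm z)

/-- A smooth Kähler form: smooth, closed, `J`-invariant and positive. -/
structure IsKahler (w : Form n X) : Prop where
  smooth : ∀ e ∈ atlas (Cm n) X, ContDiffOn ℝ ∞ (loc w e) e.target
  closed : ∀ e ∈ atlas (Cm n) X, ∀ z ∈ e.target, extDeriv (loc w e) z = 0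
  inv : ∀ x u v, w x ![J u, J v] = w x ![u, v]
  pos : ∀ x v, v ≠ 0 → 0 < w x ![v, J v]

/-- The Ricci form `Ric(w) = -i∂∂̄ log (wⁿ / dx dy)`. -/
def ric (w : Form n X) : Form n X := fun x =>
  -ddb (fun z => Real.log (top (loc w (chartAt (Cm n) x) z))) (chartAt (Cm n) x x)

/-- The scalar curvature `S(w) = tr_w Ric(w)`. -/
def scal (w : Form n X) (x : X) : ℝ := tr (w x) (ric w x)

/-- `s = ∫ S(w) wⁿ / ∫ wⁿ`. -/
def IsAvg (w : Form n X) (s : ℝ) : Prop :=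
  ∃ A V : ℝ, IsIntegral (fun e z => scal w (e.symm z) * top (loc w e z)) A ∧
    IsIntegral (fun e z => top (loc w e z)) V ∧ 0 < V ∧ s = A / V

/-- The time interval `[0,T)`, `0 ≤ T ≤ ∞`. -/
def Time (T : ℝ≥0∞) : Set ℝ := {t | 0 ≤ t ∧ ENNReal.ofReal t < T}

/-- `φ` is a smooth solution on `[0,T)` of the Calabi flow from `w` with the constant `s`:
`w + i∂∂̄φ(t)` is a Kähler form, `φ(0) = 0`, `∂φ/∂t = S(w + i∂∂̄φ(t)) - s`. -/
structure IsFlow (w : Form n X) (s : ℝ) (T : ℝ≥0∞) (φ : ℝ → X → ℝ) : Prop where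
  smooth : ContMDiffOn (𝓘(ℝ, ℝ).prod 𝓘(ℝ, Cm n)) 𝓘(ℝ, ℝ) ∞ (fun p : ℝ × X => φ p.1 p.2)
    (Time T ×ˢ univ)
  init : ∀ x, φ 0 x = 0
  kahler : ∀ t ∈ Time T, IsKahler (w + ddbar n (φ t))
  eqn : ∀ t ∈ Time T, ∀ x,
    HasDerivWithinAt (fun τ => φ τ x) (scal (w + ddbar n (φ t)) x - s) (Time T) t

/-- `φ` is the maximal smooth solution and `[0,T)` is its interval: every smooth solution is a
restriction of it. -/
def IsMaximal (w : Form n X) (s : ℝ) (T : ℝ≥0∞) (φ : ℝ → X → ℝ) : Prop :=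
  IsFlow w s T φ ∧ ∀ T' ψ, IsFlow w s T' ψ → T' ≤ T ∧ ∀ t ∈ Time T', ψ t = φ t

variable (n X) in
/-- The chart at `x` plays no role: in every chart `J` is multiplication by `i`, `i∂∂̄u` and
`Ric(w)` are given by the same formulas, `w = i ∑ g_{j k̄} dz_j ∧ dz̄_k` and `wⁿ > 0`. -/
def Charts : Prop :=
  ∀ e ∈ atlas (Cm n) X, ∀ z ∈ e.target,
    (∀ v : Cm n, mfderiv 𝓘(ℝ, Cm n) 𝓘(ℝ, Cm n) e.symm z (I • v : Cm n) =
      J (mfderiv 𝓘(ℝ, Cm n) 𝓘(ℝ, Cm n) e.symm z v)) ∧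
    (∀ u : X → ℝ, Smooth n u → loc (ddbar n u) e z = ddb (fun y => u (e.symm y)) z) ∧
    ∀ w : Form n X, IsKahler w → 0 < top (loc w e z) ∧
      loc (ric w) e z = -ddb (fun y => Real.log (top (loc w e y))) z ∧
      ∀ u v : Cm n, (loc w e z ![u, v] : ℂ) = I * ∑ j, ∑ k, mat (loc w e z) j k *
        (u j * starRingEnd ℂ (v k) - v j * starRingEnd ℂ (u k))

/-- `P` holds for all compact connected complex manifolds. -/
def ForAll (P : ∀ (n : ℕ) (X : Type) [TopologicalSpace X] [ChartedSpace (Cm n) X], Prop) : Prop :=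
  ∀ (n : ℕ) (X : Type) [TopologicalSpace X] [T2Space X] [CompactSpace X] [ConnectedSpace X]
    [ChartedSpace (Cm n) X] [IsManifold 𝓘(ℂ, Cm n) ω X], P n X

end Vale.Agent.P264F

end
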