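import Vale.Agent.P264F72.Cal
import Vale.Agent.P264Z.G.Final

/-! P264F: the dictionary between forms on `X` and coefficient matrices in charts. -/

set_option linter.all false

open scoped Manifold ContDiff ComplexOrder Topology ENNReal
open Set Complex Filter

noncomputable section

namespace Vale.Agent.P264F

open Vale.Agent.P272.K (Cm Chart IsIntegral At jacM cHess SmoothFn IsForm)
open Vale.Agent.P272.K.AMP (at_chartAt)
open Vale.Agent.P264Z (addDd IsAverageScal IsCalabiFlow logdet)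

variable {n : ℕ} {X : Type} [TopologicalSpace X] [ChartedSpace (Cm n) X]

/-- families of matrices -/
abbrev Mats (n : ℕ) (X : Type) [TopologicalSpace X] : Type :=
  Chart n X → Cm n → Matrix (Fin n) (Fin n) ℂ

/-- the coefficient matrices of a form -/
def M (w : Form n X) : Mats n X := fun e z => mat (loc w e z)

/-- the value of a form, as a form on `ℂⁿ` -/
def W (w : Form n X) (x : X) : Two n := w x

/-- derivative of a change of charts -/
def TT (e e' : Chart n X) (x : X) : Cm n →L[ℝ] Cm n := fderiv ℝ (fun y => e' (e.symm y)) (e x)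

/-- equality at all points of all charts -/
def Agree (g g' : Mats n X) : Prop := ∀ e x, At e x → g e (e x) = g' e (e x)

variable {e e' : Chart n X} {x : X} {z : Cm n} {w w' : Form n X} {g g' : Mats n X} {u : X → ℝ}
  {s : ℝ}

theorem tgt (he : e ∈ atlas (Cm n) X) (hz : z ∈ e.target) : ∃ x, At e x ∧ e x = z :=
  ⟨_, P272.K.At.of_target he hz, e.right_inv hz⟩

theorem ev_at (h : At e x) {P : Cm n → Prop} (hP : ∀ y, At e y → P (e y)) :
    ∀ᶠ z in 𝓝 (e x), P z := by
  filter_upwards [h.nhds_target] with z hz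
  obtain ⟨y, hy, rfl⟩ := tgt h.1 hz
  exact hP y hy

theorem Agree.symm (h : Agree g g') : Agree g' g := fun e x hx => (h e x hx).symm

theorem Agree.ev (h : Agree g g') (hx : At e x) : g e =ᶠ[𝓝 (e x)] g' e :=
  ev_at hx (P := fun z => g e z = g' e z) fun y hy => h e y hy

theorem Agree.kahler (h : Agree g g') (hg : P272.K.IsKahler g) : P272.K.IsKahler g' where
  smooth e x hx i j := (hg.smooth e x hx i j).congr_of_eventuallyEq (by
    filter_upwards [h.ev hx] with z hz; rw [hz])
  posDef e x hx := h e x hx ▸ hg.posDef e x hx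
  change e e' x hx hx' := by rw [← h e x hx, ← h e' x hx']; exact hg.change e e' x hx hx'
  closed e x hx i j k := by
    have : ∀ a b c, P272.K.dz a (fun z => g' e z b c) (e x) = P272.K.dz a (fun z => g e z b c) (e x) :=
      fun a b c => P272.K.dz_congr (by filter_upwards [h.ev hx] with z hz; rw [hz])
    rw [this, this]
    exact hg.closed e x hx i j k

theorem Agree.scal (h : Agree g g') (hx : At e x) :
    P264Z.scal (g e) (e x) = P264Z.scal (g' e) (e x) := P264Z.scal_congr (h.ev hx)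

theorem Agree.addDd (h : Agree g g') (u : X → ℝ) : Agree (addDd g u) (addDd g' u) :=
  fun e x hx => by unfold P264Z.addDd; rw [h e x hx]

theorem int_congr {D D' : Chart n X → Cm n → ℝ} {A : ℝ} (c : ℝ)
    (h : ∀ e x, At e x → D' e (e x) = c * D e (e x)) (hD : IsIntegral D A) :
    IsIntegral D' (c * A) := by
  intro N e ρ h1 h2 h3 h4
  rw [← hD N e ρ h1 h2 h3 h4, Finset.mul_sum]
  refine Finset.sum_congr rfl fun i _ => ?_
  rw [← MeasureTheory.integral_const_mul]
  refine MeasureTheory.setIntegral_congr_fun (e i).open_target.measurableSet fun z hz => ?_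
  obtain ⟨y, hy, rfl⟩ := tgt (h1 i) hz
  simp only [h _ y hy]
  ring

theorem Agree.avg (h : Agree g g') (hs : IsAverageScal g s) : IsAverageScal g' s := by
  obtain ⟨A, V, hA, hV, h0, rfl⟩ := hs
  refine ⟨1 * A, 1 * V, int_congr 1 (fun e x hx => ?_) hA, int_congr 1 (fun e x hx => ?_) hV,
    by simpa using h0, by simp⟩
  · rw [h.scal hx, h e x hx, one_mul]
  · rw [h e x hx, one_mul]

theorem Agree.flow (h : Agree g g') {J : Set ℝ} {φ : ℝ → X → ℝ} (hφ : IsCalabiFlow g s J φ) :
    IsCalabiFlow g' s J φ where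
  smooth := hφ.smooth
  init := hφ.init
  pos t ht e x hx := h.addDd (φ t) e x hx ▸ hφ.pos t ht e x hx
  eqn t ht e x hx := (h.addDd (φ t)).scal hx ▸ hφ.eqn t ht e x hx

theorem loc_add (w w' : Form n X) (e : Chart n X) (z : Cm n) :
    loc (w + w') e z = loc w e z + loc w' e z := by
  ext m; rfl

theorem TT_self (h : At e x) : TT e e x = ContinuousLinearMap.id ℝ (Cm n) := by
  rw [TT, Filter.EventuallyEq.fderiv_eq (f := id), fderiv_id]
  filter_upwards [h.nhds_target] with z hz using e.right_inv hz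

variable [IsManifold 𝓘(ℂ, Cm n) ω X]

theorem realMan : IsManifold 𝓘(ℝ, Cm n) ∞ X := P272.K.INT.isManifold_real n X

theorem sm_symm (h : At e x) : ContMDiffAt 𝓘(ℝ, Cm n) 𝓘(ℝ, Cm n) ∞ e.symm (e x) :=
  haveI : IsManifold 𝓘(ℝ, Cm n) ∞ X := realMan
  (contMDiffOn_symm_of_mem_maximalAtlas (IsManifold.subset_maximalAtlas h.1)).contMDiffAt
    (e.open_target.mem_nhds h.mem_target)

theorem sm_chart (h : At e x) : ContMDiffAt 𝓘(ℝ, Cm n) 𝓘(ℝ, Cm n) ∞ e x :=
  haveI : IsManifold 𝓘(ℝ, Cm n) ∞ X := realMan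
  (contMDiffOn_of_mem_maximalAtlas (IsManifold.subset_maximalAtlas h.1)).contMDiffAt
    (e.open_source.mem_nhds h.2)

theorem mf_eq (h : At e x) :
    (mfderiv 𝓘(ℝ, Cm n) 𝓘(ℝ, Cm n) e.symm (e x) : Cm n →L[ℝ] Cm n) =
      TT e (chartAt (Cm n) x) x := by
  rw [((sm_symm h).mdifferentiableAt (by simp)).mfderiv]
  simp only [writtenInExtChartAt, h.left_inv, modelWithCornersSelf_coe, range_id, fderivWithin_univ]
  rfl

theorem TT_eq (h : At e x) (h' : At e' x) (v : Cm n) :
    TT e e' x v = fderiv ℂ (fun y => e' (e.symm y)) (e x) v := by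
  rw [TT, (P272.K.transition_differentiableAt h h').fderiv_restrictScalars ℝ]
  rfl

theorem TT_I (h : At e x) (h' : At e' x) (v : Cm n) : TT e e' x (I • v) = I • TT e e' x v := by
  rw [TT_eq h h', TT_eq h h', map_smul]

theorem TT_jac (h : At e x) (h' : At e' x) (p i : Fin n) :
    jacM e e' x p i = TT e e' x (Pi.single i 1) p := by
  rw [TT_eq h h', P272.K.jacM_eq, P272.K.jmat_apply (P272.K.transition_differentiableAt h h')]

theorem loc_at (w : Form n X) (h : At e x) :
    loc w e (e x) = (W w x).compContinuousLinearMap (TT e (chartAt (Cm n) x) x) := by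
  have : loc w e (e x) = (W w (e.symm (e x))).compContinuousLinearMap
      (mfderiv 𝓘(ℝ, Cm n) 𝓘(ℝ, Cm n) e.symm (e x) : Cm n →L[ℝ] Cm n) := rfl
  rw [this, mf_eq h, h.left_inv]
  rfl

theorem loc_self (w : Form n X) (x : X) :
    loc w (chartAt (Cm n) x) (chartAt (Cm n) x x) = W w x := by
  rw [loc_at w (at_chartAt x), TT_self (at_chartAt x)]
  ext m; rfl

theorem inv_loc (hi : Inv (W w x)) (h : At e x) : Inv (loc w e (e x)) := by
  rw [loc_at w h]
  exact hi.comp (TT_I h (at_chartAt x))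

theorem M_at (hi : Inv (W w x)) (h : At e x) :
    M w e (e x) = (jacM e (chartAt (Cm n) x) x).transpose * mat (W w x) *
      (jacM e (chartAt (Cm n) x) x).map (starRingEnd ℂ) := by
  rw [M, loc_at w h]
  exact hi.mat_comp (TT_I h (at_chartAt x)) (TT_jac h (at_chartAt x))

theorem M_of (hi : ∀ x, Inv (W w x)) (hg : IsForm g)
    (h : ∀ x, mat (W w x) = g (chartAt (Cm n) x) (chartAt (Cm n) x x)) : Agree (M w) g :=
  fun e x hx => by rw [M_at (hi x) hx, h, ← hg e _ x hx (at_chartAt x)]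

theorem isForm_M (hi : ∀ x, Inv (W w x)) : IsForm (M w) := fun e e' x h h' => by
  rw [M_at (hi x) h, M_at (hi x) h', P272.K.jacM_comp h h' (at_chartAt x), Matrix.transpose_mul,
    Matrix.map_mul]
  simp only [Matrix.mul_assoc]

theorem IsKahler.inv' (h : IsKahler w) (x : X) : Inv (W w x) := fun u v => h.inv x u v

theorem IsKahler.at (h : IsKahler w) (hx : At e x) : ContDiffAt ℝ ∞ (loc w e) (e x) :=
  (h.smooth e hx.1).contDiffAt (e.open_target.mem_nhds hx.mem_target)

theorem kahler_M (h : IsKahler w) : P272.K.IsKahler (M w) where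
  smooth e x hx i j := contDiffAt_mat (h.at hx) i j
  posDef e x hx := by
    have h1 : (mat (W w x)).PosDef := (h.inv' x).posDef_iff.2 fun v hv => h.pos x v hv
    have h2 := h1.conjTranspose_mul_mul_same
      (B := (jacM e (chartAt (Cm n) x) x).map (starRingEnd ℂ))
      (Matrix.mulVec_injective_iff_isUnit.2 ((Matrix.isUnit_iff_isUnit_det _).2
        (P272.K.isUnit_conj (P272.K.jacM_isUnit hx (at_chartAt x)))))
    rw [M_at (h.inv' x) hx]
    convert h2 using 3
    ext i j
    simp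
  change := isForm_M h.inv'
  closed e x hx := (closed_iff ((h.at hx).differentiableAt (by simp))
    (ev_at hx (P := fun z => Inv (loc w e z)) fun y hy => inv_loc (h.inv' y) hy)).1
    (h.closed e hx.1 _ hx.mem_target)

theorem kahler_of (hi : ∀ x, Inv (W w x)) (h : P272.K.IsKahler (M w)) : IsKahler w := by
  have h1 : ∀ (e : Chart n X) x, At e x → ContDiffAt ℝ ∞ (loc w e) (e x) := fun e x hx =>
    (contDiffAt_frm (h.smooth e x hx)).congr_of_eventuallyEq
      (ev_at hx (P := fun z => loc w e z = frm (M w e z)) fun y hy =>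
        (inv_loc (hi y) hy).frm_mat.symm)
  refine ⟨fun e he z hz => ?_, fun e he z hz => ?_, fun x u v => hi x u v, fun x v hv => ?_⟩
  · obtain ⟨x, hx, rfl⟩ := tgt he hz
    exact (h1 e x hx).contDiffWithinAt
  · obtain ⟨x, hx, rfl⟩ := tgt he hz
    exact (closed_iff ((h1 e x hx).differentiableAt (by simp))
      (ev_at hx (P := fun z => Inv (loc w e z)) fun y hy => inv_loc (hi y) hy)).2 (h.closed e x hx)
  · have := h.posDef _ x (at_chartAt x)
    rw [M, loc_self] at this
    exact (hi x).posDef_iff.1 this v hv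

theorem exists_form (hg : P272.K.IsKahler g) : ∃ w : Form n X, IsKahler w ∧ Agree (M w) g := by
  let w : Form n X := fun x => frm (g (chartAt (Cm n) x) (chartAt (Cm n) x x))
  have hi : ∀ x, Inv (W w x) := fun x => inv_frm _
  have h : Agree (M w) g := M_of hi hg.change fun x =>
    mat_frm (hg.posDef _ x (at_chartAt x)).isHermitian
  exact ⟨w, kahler_of hi (h.symm.kahler hg), h⟩

theorem smooth_iff : Smooth n u ↔ SmoothFn (n := n) u := by
  constructor
  · intro h e x hx
    exact contMDiffAt_iff_contDiffAt.1 ((h _).comp (e x) (sm_symm hx))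
  · intro h x
    have hx := at_chartAt (n := n) x
    refine ((h _ x hx).contMDiffAt.comp x (sm_chart hx)).congr_of_eventuallyEq ?_
    filter_upwards [(chartAt (Cm n) x).open_source.mem_nhds hx.2] with y hy
    simp [(chartAt (Cm n) x).left_inv hy]

theorem inv_ddbar (hu : SmoothFn (n := n) u) (x : X) : Inv (W (ddbar n u) x) :=
  inv_ddb ((hu _ x (at_chartAt x)).of_le P264Z.two_le)

theorem M_ddbar (hu : SmoothFn (n := n) u) :
    Agree (M (ddbar n u)) fun e z => cHess (fun y => u (e.symm y)) z :=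
  M_of (inv_ddbar hu) (P272.K.INT.isClosedForm_cHess hu).form fun x =>
    mat_ddb ((hu _ x (at_chartAt x)).of_le P264Z.two_le)

theorem M_add (w : Form n X) (hu : SmoothFn (n := n) u) :
    Agree (M (w + ddbar n u)) (addDd (M w) u) := fun e x hx => by
  rw [M, loc_add, mat_add]
  exact congrArg _ (M_ddbar hu e x hx)

theorem kahler_add (hw : IsKahler w) (hu : SmoothFn (n := n) u) :
    IsKahler (w + ddbar n u) ↔ P272.K.IsKahler (addDd (M w) u) :=
  ⟨fun h => (M_add w hu).kahler (kahler_M h), fun h =>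
    kahler_of (fun x => (hw.inv' x).add (inv_ddbar hu x)) ((M_add w hu).symm.kahler h)⟩

theorem smooth_flow_iff {J : Set ℝ} {φ : ℝ → X → ℝ} :
    ContMDiffOn (𝓘(ℝ, ℝ).prod 𝓘(ℝ, Cm n)) 𝓘(ℝ, ℝ) ∞ (fun p : ℝ × X => φ p.1 p.2) (J ×ˢ univ) ↔
    ∀ t ∈ J, ∀ (e : Chart n X) x, At e x →
      ContDiffWithinAt ℝ ∞ (fun p : ℝ × Cm n => φ p.1 (e.symm p.2)) (J ×ˢ univ) (t, e x) := by
  constructor
  · intro h t ht e x hx
    have h1 : ContMDiffAt 𝓘(ℝ, ℝ × Cm n) (𝓘(ℝ, ℝ).prod 𝓘(ℝ, Cm n)) ∞
        (fun p : ℝ × Cm n => (p.1, e.symm p.2)) (t, e x) :=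
      contDiff_fst.contMDiff.contMDiffAt.prodMk
        ((sm_symm hx).comp (t, e x) contDiff_snd.contMDiff.contMDiffAt)
    exact contMDiffWithinAt_iff_contDiffWithinAt.1
      ((h _ ⟨ht, mem_univ _⟩).comp (t, e x) h1.contMDiffWithinAt fun p hp => ⟨hp.1, mem_univ _⟩)
  · rintro h ⟨t, x⟩ ⟨ht, -⟩
    have hx := at_chartAt (n := n) x
    have h1 : ContMDiffAt (𝓘(ℝ, ℝ).prod 𝓘(ℝ, Cm n)) 𝓘(ℝ, ℝ × Cm n) ∞
        (fun p : ℝ × X => (p.1, chartAt (Cm n) x p.2)) (t, x) :=
      contMDiffAt_fst.prodMk_space ((sm_chart hx).comp (t, x) contMDiffAt_snd)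
    have h2 : MapsTo (fun p : ℝ × X => (p.1, chartAt (Cm n) x p.2)) (J ×ˢ univ) (J ×ˢ univ) :=
      fun p hp => ⟨hp.1, mem_univ _⟩
    refine ((h t ht _ x hx).contMDiffWithinAt.comp (t, x) h1.contMDiffWithinAt
      h2).congr_of_eventuallyEq (mem_nhdsWithin_of_mem_nhds ?_) ?_
    · filter_upwards [continuousAt_snd.eventually
        ((chartAt (Cm n) x).open_source.mem_nhds hx.2)] with p hp
      simp [(chartAt (Cm n) x).left_inv hp]
    · simp [hx.left_inv]

end Vale.Agent.P264F

end
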