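import Vale.Agent.P264F72.Dict
import Vale.Agent.P264T9.Top

/-! P264F: Ricci form, scalar curvature, average and the flow in charts. -/

set_option linter.all false

open scoped Manifold ContDiff ComplexOrder Topology ENNReal
open Set Complex Filter

noncomputable section

namespace Vale.Agent.P264F

open Vale.Agent.P272.K (Cm Chart IsIntegral At jacM cHess SmoothFn IsForm)
open Vale.Agent.P272.K.AMP (at_chartAt)
open Vale.Agent.P264Z (addDd IsAverageScal IsCalabiFlow logdet)

variable {n : ℕ} {X : Type} [TopologicalSpace X] [ChartedSpace (Cm n) X]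
  [IsManifold 𝓘(ℂ, Cm n) ω X] {e : Chart n X} {x : X} {w : Form n X} {u : X → ℝ} {s : ℝ}

/-- the constant of `top_eq` -/
def cc (n : ℕ) : ℝ := (top_eq n).choose

theorem cc_pos : 0 < cc n := (top_eq n).choose_spec.1

theorem top_loc (hw : IsKahler w) (hx : At e x) :
    top (loc w e (e x)) = cc n * (M w e (e x)).det.re :=
  (top_eq n).choose_spec.2 _ (inv_loc (hw.inv' x) hx) ((kahler_M hw).posDef e x hx)

theorem log_top (hw : IsKahler w) (hx : At e x) :
    (fun z => Real.log (top (loc w e z))) =ᶠ[𝓝 (e x)]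
      fun z => Real.log (cc n) + logdet (M w) e z :=
  ev_at hx (P := fun z => Real.log (top (loc w e z)) = Real.log (cc n) + logdet (M w) e z)
    fun y hy => by
      rw [top_loc hw hy, Real.log_mul cc_pos.ne'
        (P264Z.det_re_pos ((kahler_M hw).posDef e y hy)).ne']
      rfl

theorem c2_log (hw : IsKahler w) (hx : At e x) :
    ContDiffAt ℝ 2 (fun z => Real.log (top (loc w e z))) (e x) :=
  (contDiffAt_const.add ((P264Z.logdet_smooth (kahler_M hw).toIsHermitian hx).of_le
    P264Z.two_le)).congr_of_eventuallyEq (log_top hw hx)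

theorem mat_log (hw : IsKahler w) (hx : At e x) :
    mat (-ddb (fun z => Real.log (top (loc w e z))) (e x)) = -cHess (logdet (M w) e) (e x) := by
  rw [mat_neg, mat_ddb (c2_log hw hx), P272.K.cHess_congr (log_top hw hx),
    P272.K.cHess_add contDiffAt_const ((P264Z.logdet_smooth (kahler_M hw).toIsHermitian hx).of_le
      P264Z.two_le), P272.K.cHess_const, zero_add]

theorem inv_ric (hw : IsKahler w) (x : X) : Inv (W (ric w) x) :=
  (inv_ddb (c2_log hw (at_chartAt x))).neg

theorem M_ric (hw : IsKahler w) :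
    Agree (M (ric w)) fun e z => (-1 : ℂ) • cHess (logdet (M w) e) z :=
  M_of (inv_ric hw) ((P272.K.INT.isClosedForm_canonical
    (P264Z.isCanonical_logdet (kahler_M hw).toIsHermitian)).form.smul _) fun x => by
      rw [neg_one_smul]
      exact mat_log hw (at_chartAt x)

theorem scal_eq (hw : IsKahler w) (hx : At e x) : scal w x = P264Z.scal (M w e) (e x) := by
  rw [P264Z.scal_change (kahler_M hw).toIsHermitian hx (at_chartAt x), P264Z.scal, M, loc_self]
  exact congrArg (fun A => ((mat (W w x))⁻¹ * A).trace.re) (mat_log hw (at_chartAt x))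

theorem avg_iff (hw : IsKahler w) : IsAvg w s ↔ IsAverageScal (M w) s := by
  have hc := cc_pos (n := n)
  constructor
  · rintro ⟨A, V, hA, hV, h0, rfl⟩
    refine ⟨_, _, int_congr (cc n)⁻¹ (fun e x hx => ?_) hA,
      int_congr (cc n)⁻¹ (fun e x hx => ?_) hV, by positivity, by field_simp⟩
    · rw [hx.left_inv, scal_eq hw hx, top_loc hw hx]; field_simp
    · rw [top_loc hw hx]; field_simp
  · rintro ⟨A, V, hA, hV, h0, rfl⟩
    refine ⟨_, _, int_congr (cc n) (fun e x hx => ?_) hA,
      int_congr (cc n) (fun e x hx => top_loc hw hx) hV, by positivity, by field_simp⟩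
    rw [hx.left_inv, scal_eq hw hx, top_loc hw hx]; ring

theorem scal_add (hu : SmoothFn (n := n) u) (h : IsKahler (w + ddbar n u)) (hx : At e x) :
    scal (w + ddbar n u) x = P264Z.scal (addDd (M w) u e) (e x) :=
  (scal_eq h hx).trans ((M_add w hu).scal hx)

theorem flow_iff (hw : IsKahler w) {T : ℝ≥0∞} {φ : ℝ → X → ℝ} :
    IsFlow w s T φ ↔ IsCalabiFlow (M w) s (Time T) φ := by
  constructor
  · intro h
    have h1 := smooth_flow_iff.1 h.smooth
    have h2 : ∀ t ∈ Time T, SmoothFn (n := n) (φ t) := fun t ht e x hx =>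
      P264Z.SmJ.slice (f := fun p : ℝ × Cm n => φ p.1 (e.symm p.2)) (h1 t ht e x hx) ht
    exact ⟨h1, h.init,
      fun t ht => ((kahler_add hw (h2 t ht)).1 (h.kahler t ht)).posDef,
      fun t ht e x hx => scal_add (h2 t ht) (h.kahler t ht) hx ▸ h.eqn t ht x⟩
  · intro h
    have h2 : ∀ t ∈ Time T, IsKahler (w + ddbar n (φ t)) := fun t ht =>
      (kahler_add hw (h.smoothFn ht)).2 (h.isKahler (kahler_M hw) ht)
    exact ⟨smooth_flow_iff.2 h.smooth, h.init, h2, fun t ht x => by
      rw [scal_add (h.smoothFn ht) (h2 t ht) (at_chartAt x)]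
      exact h.eqn t ht _ x (at_chartAt x)⟩

theorem charts : Charts n X := by
  intro e he z hz
  obtain ⟨x, hx, rfl⟩ := tgt he hz
  refine ⟨fun v => ?_, fun u hu => ?_, fun w hw => ⟨?_, ?_, (inv_loc (hw.inv' x) hx).formula⟩⟩
  · rw [mf_eq hx]
    exact TT_I hx (at_chartAt x) v
  · have h := smooth_iff.1 hu
    have h2 := (h e x hx).of_le P264Z.two_le
    exact (inv_loc (inv_ddbar h x) hx).ext (inv_ddb h2)
      ((M_ddbar h e x hx).trans (mat_ddb h2).symm)
  · rw [top_loc hw hx]
    exact mul_pos cc_pos (P264Z.det_re_pos ((kahler_M hw).posDef e x hx))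
  · refine (inv_loc (inv_ric hw x) hx).ext (inv_ddb (c2_log hw hx)).neg ?_
    rw [mat_log hw hx, ← neg_one_smul ℂ]
    exact M_ric hw e x hx

end Vale.Agent.P264F

end
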