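import Vale.Agent.P264F72.Defs
import Vale.Agent.P272.K.N.Hess
import Vale.Agent.P272.K.C2.Wirt

/-! P264F: linear algebra and calculus of real `(1,1)`-forms on `ℂⁿ`. -/

set_option linter.all false

open scoped ContDiff ComplexOrder Topology
open Set Complex Filter

noncomputable section

namespace Vale.Agent.P264F

open Vale.Agent.P272.K (Cm dz cHess)

variable {n : ℕ}

theorem two_swap (α : Two n) (u v : Cm n) : α ![u, v] = -α ![v, u] := by
  have h := α.toAlternatingMap.map_swap ![v, u] (i := 0) (j := 1) (by decide)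
  have e : (![v, u] ∘ Equiv.swap (0 : Fin 2) 1) = ![u, v] := by
    funext i; fin_cases i <;> simp
  rw [e] at h
  exact h

theorem two_add (α : Two n) (u u' v : Cm n) : α ![u + u', v] = α ![u, v] + α ![u', v] :=
  α.vecCons_add ![v] u u'

theorem two_smul (α : Two n) (c : ℝ) (u v : Cm n) : α ![c • u, v] = c * α ![u, v] :=
  α.vecCons_smul ![v] c u

theorem two_add' (α : Two n) (u v v' : Cm n) : α ![u, v + v'] = α ![u, v] + α ![u, v'] := by
  rw [two_swap, two_add, two_swap α u v, two_swap α u v']; ring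

theorem two_smul' (α : Two n) (c : ℝ) (u v : Cm n) : α ![u, c • v] = c * α ![u, v] := by
  rw [two_swap, two_smul, two_swap α u v]; ring

theorem two_neg (α : Two n) (u v : Cm n) : α ![-u, v] = -α ![u, v] := by
  simpa using two_smul α (-1) u v

theorem two_neg' (α : Two n) (u v : Cm n) : α ![u, -v] = -α ![u, v] := by
  simpa using two_smul' α (-1) u v

theorem two_ext {α β : Two n} (h : ∀ u v, α ![u, v] = β ![u, v]) : α = β := by
  ext m
  have : m = ![m 0, m 1] := by funext i; fin_cases i <;> rfl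
  rw [this]
  exact h _ _

theorem II (v : Cm n) : I • I • v = -v := by rw [smul_smul, I_mul_I, neg_one_smul]

/-- `J`-invariance -/
def Inv (α : Two n) : Prop := ∀ u v : Cm n, α ![I • u, I • v] = α ![u, v]

theorem Inv.left {α : Two n} (h : Inv α) (u v : Cm n) : α ![I • u, v] = -α ![u, I • v] := by
  rw [← h (I • u) v, II, two_neg]

theorem Inv.add {α β : Two n} (h : Inv α) (h' : Inv β) : Inv (α + β) := fun u v => by
  simp only [ContinuousAlternatingMap.add_apply, h u v, h' u v]

theorem Inv.neg {α : Two n} (h : Inv α) : Inv (-α) := fun u v => by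
  simp only [ContinuousAlternatingMap.neg_apply, h u v]

/-- the Hermitian form of `α` -/
def hf (α : Two n) (u v : Cm n) : ℂ := (α ![u, I • v] - I * α ![u, v]) / 2

theorem I_single (k : Fin n) : I • (Pi.single k 1 : Cm n) = Pi.single k I := by
  rw [← Pi.single_smul, smul_eq_mul, mul_one]

theorem mat_apply (α : Two n) (j k : Fin n) :
    mat α j k = hf α (Pi.single j 1) (Pi.single k 1) := by
  rw [hf, I_single]; rfl

theorem mat_add (α β : Two n) : mat (α + β) = mat α + mat β := by
  ext j k
  simp only [mat, Matrix.of_apply, Matrix.add_apply, ContinuousAlternatingMap.add_apply,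
    ofReal_add]
  ring

theorem mat_neg (α : Two n) : mat (-α) = -mat α := by
  ext j k
  simp only [mat, Matrix.of_apply, Matrix.neg_apply, ContinuousAlternatingMap.neg_apply,
    ofReal_neg]
  ring

theorem smul_split (c : ℂ) (u : Cm n) : c • u = c.re • u + c.im • (I • u) := by
  ext i
  simp only [Pi.smul_apply, Pi.add_apply, smul_eq_mul, real_smul]
  conv_lhs => rw [← re_add_im c]
  ring

theorem Inv.hf_I {α : Two n} (h : Inv α) (u v : Cm n) : hf α (I • u) v = I * hf α u v := by
  rw [hf, hf, h u v, h.left]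
  push_cast
  linear_combination (α ![u, v] / 2 : ℂ) * I_mul_I

theorem Inv.hf_conj {α : Two n} (h : Inv α) (u v : Cm n) :
    hf α v u = starRingEnd ℂ (hf α u v) := by
  rw [hf, hf, two_swap α v (I • u), h.left, two_swap α v u]
  simp [map_ofNat]

theorem hf_add (α : Two n) (u u' v : Cm n) : hf α (u + u') v = hf α u v + hf α u' v := by
  simp only [hf, two_add]; push_cast; ring

theorem hf_rsmul (α : Two n) (c : ℝ) (u v : Cm n) : hf α (c • u) v = c * hf α u v := by
  simp only [hf, two_smul]; push_cast; ring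

theorem Inv.hf_smul {α : Two n} (h : Inv α) (c : ℂ) (u v : Cm n) :
    hf α (c • u) v = c * hf α u v := by
  rw [smul_split, hf_add, hf_rsmul, hf_rsmul, h.hf_I]
  conv_rhs => rw [← re_add_im c]
  ring

theorem Inv.hf_left {α : Two n} (h : Inv α) (u v : Cm n) :
    hf α u v = ∑ j, u j * hf α (Pi.single j 1) v := by
  let L : Cm n →ₗ[ℂ] ℂ :=
    { toFun := fun u => hf α u v, map_add' := fun a b => hf_add α a b v,
      map_smul' := fun c a => h.hf_smul c a v }
  have := L.pi_apply_eq_sum_univ u
  refine this.trans (Finset.sum_congr rfl fun j _ => ?_)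
  have e : (fun i => if j = i then (1 : ℂ) else 0) = Pi.single j 1 := by
    funext i
    simp [Pi.single_apply, eq_comm]
  rw [e]
  rfl

theorem Inv.hf_eq {α : Two n} (h : Inv α) (u v : Cm n) :
    hf α u v = ∑ j, ∑ k, mat α j k * (u j * starRingEnd ℂ (v k)) := by
  rw [h.hf_left]
  refine Finset.sum_congr rfl fun j _ => ?_
  rw [h.hf_conj v, h.hf_left v, map_sum, Finset.mul_sum]
  refine Finset.sum_congr rfl fun k _ => ?_
  rw [map_mul, ← h.hf_conj, mat_apply]
  ring

theorem apply_eq_hf (α : Two n) (u v : Cm n) : α ![u, v] = -2 * (hf α u v).im := by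
  simp [hf]; ring

theorem apply_I_eq_hf (α : Two n) (u v : Cm n) : α ![u, I • v] = 2 * (hf α u v).re := by
  simp [hf]; ring

theorem Inv.ext {α β : Two n} (h : Inv α) (h' : Inv β) (e : mat α = mat β) : α = β :=
  two_ext fun u v => by rw [apply_eq_hf, apply_eq_hf β, h.hf_eq, h'.hf_eq, e]

theorem Inv.herm {α : Two n} (h : Inv α) : (mat α).IsHermitian :=
  Matrix.IsHermitian.ext fun i j => by rw [mat_apply, mat_apply, h.hf_conj (Pi.single j 1)]; rfl

theorem Inv.formula {α : Two n} (h : Inv α) (u v : Cm n) :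
    (α ![u, v] : ℂ) = I * ∑ j, ∑ k, mat α j k *
      (u j * starRingEnd ℂ (v k) - v j * starRingEnd ℂ (u k)) := by
  simp only [mul_sub, Finset.sum_sub_distrib]
  rw [← mul_sub, ← h.hf_eq, ← h.hf_eq, h.hf_conj u v, Complex.sub_conj, apply_eq_hf]
  push_cast
  linear_combination (-2 * (hf α u v).im : ℂ) * I_mul_I

theorem Inv.quad {α : Two n} (h : Inv α) (x : Cm n) :
    star x ⬝ᵥ (mat α).mulVec x = ((α ![star x, I • star x] / 2 : ℝ) : ℂ) := by
  have e : hf α (star x) (star x) = ((α ![star x, I • star x] / 2 : ℝ) : ℂ) := by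
    have : α ![star x, star x] = 0 := by have := two_swap α (star x) (star x); linarith
    rw [hf, this]; simp
  rw [← e, h.hf_eq]
  simp only [dotProduct, Matrix.mulVec, Finset.mul_sum]
  refine Finset.sum_congr rfl fun j _ => Finset.sum_congr rfl fun k _ => ?_
  simp; ring

theorem Inv.posDef_iff {α : Two n} (h : Inv α) :
    (mat α).PosDef ↔ ∀ v : Cm n, v ≠ 0 → 0 < α ![v, I • v] := by
  rw [Matrix.posDef_iff_dotProduct_mulVec]
  constructor
  · rintro ⟨-, h2⟩ v hv
    have := h2 (x := star v) (by simpa using hv)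
    rw [h.quad, star_star, Complex.zero_lt_real] at this
    linarith
  · intro h2
    refine ⟨h.herm, fun x hx => ?_⟩
    rw [h.quad, Complex.zero_lt_real]
    have := h2 (star x) (by simpa using hx)
    linarith

theorem comp_apply (α : Two n) (T : Cm n →L[ℝ] Cm n) (u v : Cm n) :
    α.compContinuousLinearMap T ![u, v] = α ![T u, T v] := by
  rw [ContinuousAlternatingMap.compContinuousLinearMap_apply]
  congr 1
  funext i; fin_cases i <;> rfl

theorem Inv.comp {α : Two n} (h : Inv α) {T : Cm n →L[ℝ] Cm n} (hT : ∀ v, T (I • v) = I • T v) :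
    Inv (α.compContinuousLinearMap T) := fun u v => by
  rw [comp_apply, comp_apply, hT, hT, h]

theorem Inv.mat_comp {α : Two n} (h : Inv α) {T : Cm n →L[ℝ] Cm n}
    (hT : ∀ v, T (I • v) = I • T v) {A : Matrix (Fin n) (Fin n) ℂ}
    (hA : ∀ p i, A p i = T (Pi.single i 1) p) :
    mat (α.compContinuousLinearMap T) = A.transpose * mat α * A.map (starRingEnd ℂ) := by
  ext j k
  have : mat (α.compContinuousLinearMap T) j k =
      hf α (T (Pi.single j 1)) (T (Pi.single k 1)) := by
    rw [mat_apply, hf, hf, comp_apply, comp_apply, hT]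
  rw [this, h.hf_eq]
  simp only [Matrix.mul_apply, Matrix.transpose_apply, Matrix.map_apply, hA, Finset.sum_mul]
  rw [Finset.sum_comm]
  refine Finset.sum_congr rfl fun q _ => Finset.sum_congr rfl fun p _ => ?_
  ring

/-! ### the form of a matrix -/

/-- `l ∧ m` -/
def wedge (l m : Cm n →L[ℝ] ℝ) : Two n :=
  ContinuousAlternatingMap.alternatizeUncurryFin
    (l.smulRight (ContinuousAlternatingMap.ofSubsingleton ℝ (Cm n) ℝ (0 : Fin 1) m))

theorem wedge_apply (l m : Cm n →L[ℝ] ℝ) (u v : Cm n) :
    wedge l m ![u, v] = l u * m v - l v * m u := by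
  simp [wedge, ContinuousAlternatingMap.alternatizeUncurryFin_apply, Fin.sum_univ_two,
    Fin.removeNth, sub_eq_add_neg]

def dx (j : Fin n) : Cm n →L[ℝ] ℝ := reCLM.comp (ContinuousLinearMap.proj j)
def dy (j : Fin n) : Cm n →L[ℝ] ℝ := imCLM.comp (ContinuousLinearMap.proj j)

/-- the real form of a matrix -/
def frm (H : Matrix (Fin n) (Fin n) ℂ) : Two n :=
  ∑ j, ∑ k, ((H j k).re • (wedge (dx j) (dy k) - wedge (dy j) (dx k)) -
    (H j k).im • (wedge (dx j) (dx k) + wedge (dy j) (dy k)))

theorem frm_apply (H : Matrix (Fin n) (Fin n) ℂ) (u v : Cm n) :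
    frm H ![u, v] = (∑ j, ∑ k, H j k * (v j * starRingEnd ℂ (u k))).im -
      (∑ j, ∑ k, H j k * (u j * starRingEnd ℂ (v k))).im := by
  simp only [frm, ContinuousAlternatingMap.sum_apply, ContinuousAlternatingMap.sub_apply,
    ContinuousAlternatingMap.add_apply, ContinuousAlternatingMap.smul_apply, wedge_apply, im_sum,
    ← Finset.sum_sub_distrib]
  refine Finset.sum_congr rfl fun j _ => Finset.sum_congr rfl fun k _ => ?_
  simp [dx, dy]
  ring

theorem inv_frm (H : Matrix (Fin n) (Fin n) ℂ) : Inv (frm H) := fun u v => by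
  have e : ∀ a b : ℂ, I * a * starRingEnd ℂ (I * b) = a * starRingEnd ℂ b := fun a b => by
    rw [map_mul, conj_I]; linear_combination (-a * starRingEnd ℂ b) * I_mul_I
  simp only [frm_apply, Pi.smul_apply, smul_eq_mul, e]

theorem mat_frm {H : Matrix (Fin n) (Fin n) ℂ} (hH : H.IsHermitian) : mat (frm H) = H := by
  ext j k
  have e : ∀ (a b : Fin n) (c d : ℂ), ∑ p, ∑ q, H p q * ((Pi.single a c : Cm n) p *
      starRingEnd ℂ ((Pi.single b d : Cm n) q)) = H a b * (c * starRingEnd ℂ d) := by
    intro a b c d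
    rw [Finset.sum_eq_single a, Finset.sum_eq_single b]
    · simp
    · intro q _ hq; simp [hq]
    · simp
    · intro p _ hp; simp [hp]
    · simp
  have h1 : H k j = starRingEnd ℂ (H j k) := (hH.apply k j).symm
  simp only [mat, Matrix.of_apply, frm_apply, e, h1]
  apply Complex.ext <;> simp <;> ring

theorem contDiffAt_frm {E : Type*} [NormedAddCommGroup E] [NormedSpace ℝ E]
    {H : E → Matrix (Fin n) (Fin n) ℂ} {z : E} (h : ∀ j k, ContDiffAt ℝ ∞ (fun y => H y j k) z) :
    ContDiffAt ℝ ∞ (fun y => frm (H y)) z := by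
  unfold frm
  refine ContDiffAt.sum fun j _ => ContDiffAt.sum fun k _ => ContDiffAt.sub ?_ ?_
  · exact (reCLM.contDiff.contDiffAt.comp z (h j k)).smul contDiffAt_const
  · exact (imCLM.contDiff.contDiffAt.comp z (h j k)).smul contDiffAt_const

theorem Inv.frm_mat {α : Two n} (h : Inv α) : frm (mat α) = α :=
  (inv_frm _).ext h (mat_frm h.herm)

/-- `mat · j k` as a continuous linear map -/
def matL (j k : Fin n) : Two n →L[ℝ] ℂ :=
  (2⁻¹ : ℂ) • (ofRealCLM.comp (ContinuousAlternatingMap.apply ℝ (Cm n) ℝ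
      ![Pi.single j 1, Pi.single k I]) -
    I • ofRealCLM.comp (ContinuousAlternatingMap.apply ℝ (Cm n) ℝ ![Pi.single j 1, Pi.single k 1]))

theorem matL_apply (j k : Fin n) (α : Two n) : matL j k α = mat α j k := by
  simp [matL, mat]; ring

theorem contDiffAt_mat {E : Type*} [NormedAddCommGroup E] [NormedSpace ℝ E]
    {α : E → Two n} {z : E} (h : ContDiffAt ℝ ∞ α z) (j k : Fin n) :
    ContDiffAt ℝ ∞ (fun y => mat (α y) j k) z := by
  simp only [← matL_apply]
  exact (matL j k).contDiff.contDiffAt.comp z h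

end Vale.Agent.P264F

end
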