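import Vale.Agent.P264F72.Asm
import Mathlib.LinearAlgebra.Lagrange
import Mathlib.LinearAlgebra.Matrix.Polynomial

/-! P264F: the average depends only on the class; the maximal solution. -/

set_option linter.all false

open scoped Manifold ContDiff ComplexOrder Topology ENNReal
open Set Complex Filter

noncomputable section

namespace Vale.Agent.P264F

open Vale.Agent.P272.K (Cm Chart IsIntegral At jacM cHess SmoothFn IsForm)
open Vale.Agent.P272.K.INT (intX)
open Vale.Agent.P264Z (addDd IsAverageScal IsCalabiFlow logdet)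

open Polynomial in
theorem jacobi (n : ℕ) : ∃ c : ℕ → ℂ, ∀ P Q : Matrix (Fin n) (Fin n) ℂ, IsUnit P.det →
    P.det * (P⁻¹ * Q).trace = ∑ k ∈ Finset.range (n + 1), (P + (k : ℂ) • Q).det * c k := by
  refine ⟨fun k => (Lagrange.basis (Finset.range (n + 1)) (fun k : ℕ => (k : ℂ)) k).coeff 1,
    fun P Q hP => ?_⟩
  have hd := natDegree_det_X_add_C_le (P⁻¹ * Q) 1
  rw [Matrix.map_one _ C_0 C_1, add_comm, Fintype.card_fin] at hd
  have h := Lagrange.eq_interpolate (s := Finset.range (n + 1)) (v := fun k : ℕ => (k : ℂ))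
    (f := (1 + (X : ℂ[X]) • (P⁻¹ * Q).map C).det) Nat.cast_injective.injOn
    (degree_le_natDegree.trans_lt (by rw [Finset.card_range]; exact_mod_cast Nat.lt_succ_of_le hd))
  rw [← Matrix.coeff_det_one_add_X_smul_one, h, Lagrange.interpolate_apply, finset_sum_coeff,
    Finset.mul_sum]
  refine Finset.sum_congr rfl fun k _ => ?_
  have hev : eval (k : ℂ) (1 + (X : ℂ[X]) • (P⁻¹ * Q).map C).det = (1 + (k : ℂ) • (P⁻¹ * Q)).det := by
    rw [← coe_evalRingHom, RingHom.map_det]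
    congr 1
    ext i j
    simp only [RingHom.mapMatrix_apply, Matrix.map_apply, Matrix.add_apply, Matrix.smul_apply,
      smul_eq_mul, coe_evalRingHom, eval_add, eval_mul, eval_X, eval_C, Matrix.one_apply,
      apply_ite (eval (k : ℂ)), eval_one, eval_zero]
  rw [coeff_C_mul, hev, ← mul_assoc, ← Matrix.det_mul, Matrix.mul_add, Matrix.mul_one,
    Matrix.mul_smul, ← Matrix.mul_assoc, Matrix.mul_nonsing_inv _ hP, Matrix.one_mul]

variable {n : ℕ} {X : Type} [TopologicalSpace X] [ChartedSpace (Cm n) X]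
  [IsManifold 𝓘(ℂ, Cm n) ω X] [T2Space X] [CompactSpace X] {g : Mats n X} {u : X → ℝ} {s : ℝ}

theorem avg_eq [Nonempty X] (hg : P272.K.IsKahler g) : IsAverageScal g s ↔
    s = intX (fun e z => P264Z.scal (g e) z * (g e z).det.re) / intX fun e z => (g e z).det.re := by
  obtain ⟨s', A, V, hA, hV, h0, -⟩ := P264Z.exists_average hg.toIsHermitian
  constructor
  · rintro ⟨A, V, hA, hV, h0, rfl⟩
    rw [P272.K.INT.intX_eq_of_isIntegral hA, P272.K.INT.intX_eq_of_isIntegral hV]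
  · intro h
    rw [P272.K.INT.intX_eq_of_isIntegral hA, P272.K.INT.intX_eq_of_isIntegral hV] at h
    exact ⟨A, V, hA, hV, h0, h⟩

theorem closed_k (hg : P272.K.IsKahler g) (k : ℕ) :
    P272.K.INT.IsClosedForm fun e z => g e z + (k : ℂ) • cHess (logdet g e) z :=
  (P272.K.INT.IsKahler.isClosedForm hg).add
    ((P272.K.INT.isClosedForm_canonical (P264Z.isCanonical_logdet hg.toIsHermitian)).smul _)

theorem int_scal (hg : P272.K.IsKahler g) :
    intX (fun e z => P264Z.scal (g e) z * (g e z).det.re) = ∑ k ∈ Finset.range (n + 1),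
      -((jacobi n).choose k).re * intX fun e z => (g e z + (k : ℂ) • cHess (logdet g e) z).det.re := by
  simp only [← P272.K.INT.intX_const_mul]
  rw [← P272.K.INT.intX_sum _ fun k _ => (closed_k hg k).isDensity.const_mul _]
  refine P272.K.INT.intX_congr fun e x hx => ?_
  have hp := hg.posDef e x hx
  have h1 := congrArg re ((jacobi n).choose_spec (g e (e x)) (cHess (logdet g e) (e x))
    (isUnit_iff_ne_zero.2 hp.det_pos.ne'))
  have hH : (cHess (logdet g e) (e x)).IsHermitian := by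
    have h2 := (P264Z.logdet_smooth hg.toIsHermitian hx).of_le P264Z.two_le
    rw [← mat_ddb h2]
    exact (inv_ddb h2).herm
  have him : ∀ k : ℕ, (g e (e x) + (k : ℂ) • cHess (logdet g e) (e x)).det.im = 0 := fun k => by
    have : (g e (e x) + (k : ℂ) • cHess (logdet g e) (e x)).IsHermitian :=
      hp.isHermitian.add (by simp [Matrix.IsHermitian, hH.eq])
    rw [← conj_eq_iff_im, starRingEnd_apply, ← Matrix.det_conjTranspose, this.eq]
  have h0 := him 0
  simp only [Nat.cast_zero, zero_smul, add_zero] at h0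
  simp only [re_sum, mul_re, him, h0, zero_mul, sub_zero] at h1
  rw [P264Z.scal_eq, P272.K.AMP.trE, neg_mul, mul_comm, h1, ← Finset.sum_neg_distrib]
  exact Finset.sum_congr rfl fun k _ => by ring

theorem avg_class [Nonempty X] (hg : P272.K.IsKahler g) (hu : SmoothFn (n := n) u)
    (hk : P272.K.IsKahler (addDd g u)) : IsAverageScal (addDd g u) s ↔ IsAverageScal g s := by
  obtain ⟨v, hv, h⟩ := P272.K.INT.exists_diff (P264Z.isCanonical_logdet hk.toIsHermitian)
    (P264Z.isCanonical_logdet hg.toIsHermitian)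
  rw [avg_eq hg, avg_eq hk, int_scal hg, int_scal hk,
    ← P272.K.INT.intX_det_add_cHess (P272.K.INT.IsKahler.isClosedForm hg) hu]
  refine Eq.congr_right (congrArg₂ _ (Finset.sum_congr rfl fun k _ => congrArg _ ?_) rfl)
  rw [← P272.K.INT.intX_det_add_cHess (closed_k hg k) (u := fun x => u x + k * v x)
    fun e x hx => (hu e x hx).add (contDiffAt_const.mul (hv e x hx))]
  refine P272.K.INT.intX_congr fun e x hx => ?_
  have h2 := (hv e x hx).of_le P264Z.two_le
  rw [h e x hx, P272.K.cHess_add ((hu e x hx).of_le P264Z.two_le) (contDiffAt_const.mul h2),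
    P272.K.cHess_const_mul _ h2, addDd, smul_add]
  congr 2
  simp only [ofReal_natCast]
  abel

omit [IsManifold 𝓘(ℂ, Cm n) ω X] [T2Space X] [CompactSpace X] in
theorem flow_loc {T : ℝ≥0∞} {φ : ℝ → X → ℝ} (h0 : ∀ x, φ 0 x = 0)
    (h : ∀ t ∈ Time T, ∃ T' ψ, T' ≤ T ∧ t ∈ Time T' ∧ IsCalabiFlow g s (Time T') ψ ∧
      ∀ τ ∈ Time T', φ τ = ψ τ) : IsCalabiFlow g s (Time T) φ := by
  have hn : ∀ {t T'}, t ∈ Time T' → Time T' ∈ 𝓝[Time T] t := fun {t T'} ht => by
    filter_upwards [self_mem_nhdsWithin, mem_nhdsWithin_of_mem_nhds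
      (ENNReal.continuous_ofReal.continuousAt.eventually (gt_mem_nhds ht.2))] with τ h1 h2
    exact ⟨h1.1, h2⟩
  refine ⟨fun t ht e x hx => ?_, h0, fun t ht e x hx => ?_, fun t ht e x hx => ?_⟩ <;>
    obtain ⟨T', ψ, -, ht', hψ, he⟩ := h t ht
  · refine ((hψ.smooth t ht' e x hx).congr (fun p hp => by rw [he _ hp.1])
      (by rw [he _ ht'])).mono_of_mem_nhdsWithin ?_
    rw [nhdsWithin_prod_eq, nhdsWithin_univ]
    exact prod_mem_prod (hn ht') univ_mem
  · rw [he t ht']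
    exact hψ.pos t ht' e x hx
  · rw [he t ht']
    exact ((hψ.eqn t ht' e x hx).congr (fun τ hτ => by rw [he _ hτ])
      (by rw [he _ ht'])).mono_of_mem_nhdsWithin (hn ht')

theorem uniq (hg : P272.K.IsKahler g) {T T' : ℝ≥0∞} {φ ψ : ℝ → X → ℝ}
    (h : IsCalabiFlow g s (Time T) φ) (h' : IsCalabiFlow g s (Time T') ψ) {t : ℝ}
    (ht : t ∈ Time T) (ht' : t ∈ Time T') : ψ t = φ t := by
  funext x
  rcases ht.1.eq_or_lt with rfl | h0
  · rw [h.init, h'.init]
  · exact (h'.mono (Icc_sub ht')).unique hg h0 (h.mono (Icc_sub ht)) t (right_mem_Icc.2 h0.le) x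

theorem exists_max (hg : P272.K.IsKahler g) (s : ℝ) : ∃ T φ, IsCalabiFlow g s (Time T) φ ∧
    ∀ T' ψ, IsCalabiFlow g s (Time T') ψ → T' ≤ T ∧ ∀ t ∈ Time T', ψ t = φ t := by
  classical
  let φ : ℝ → X → ℝ := fun t =>
    if h : ∃ p : ℝ≥0∞ × (ℝ → X → ℝ), IsCalabiFlow g s (Time p.1) p.2 ∧ t ∈ Time p.1 then
      h.choose.2 t else fun _ => 0
  have key : ∀ T ψ, IsCalabiFlow g s (Time T) ψ → ∀ t ∈ Time T, ψ t = φ t := fun T ψ h t ht => by
    have h1 : ∃ p : ℝ≥0∞ × (ℝ → X → ℝ), IsCalabiFlow g s (Time p.1) p.2 ∧ t ∈ Time p.1 :=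
      ⟨(T, ψ), h, ht⟩
    simp only [φ, dif_pos h1]
    exact uniq hg h1.choose_spec.1 h h1.choose_spec.2 ht
  refine ⟨sSup {T | ∃ ψ, IsCalabiFlow g s (Time T) ψ}, φ, flow_loc (fun x => ?_) fun t ht => ?_,
    fun T ψ h => ⟨le_sSup ⟨ψ, h⟩, key T ψ h⟩⟩
  · simp only [φ]
    split_ifs with h
    · exact h.choose_spec.1.init x
    · rfl
  · obtain ⟨T', ⟨ψ, hψ⟩, h2⟩ := lt_sSup_iff.1 ht.2
    exact ⟨T', ψ, le_sSup ⟨ψ, hψ⟩, ⟨ht.1, h2⟩, hψ, fun τ hτ => (key _ _ hψ τ hτ).symm⟩

theorem rows : Rows := by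
  intro n X _ _ _ _ _ _ g hg
  refine ⟨exists_max hg, ⟨_, (avg_eq hg).2 rfl, fun s => (avg_eq hg).1⟩,
    fun u s hu hk => avg_class hg hu hk, fun s hs => ?_⟩
  obtain ⟨-, -, V, -, hV, h0, -⟩ := P264Z.exists_average hg.toIsHermitian
  exact ⟨s * V, V, int_congr s (fun e x hx => by rw [hs e x hx]) hV, hV, h0, by field_simp⟩

end Vale.Agent.P264F

end
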